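import Vale.Agent.P352.BW.Dom2
import Vale.Agent.P352.BW.H284.Cg
import Vale.Agent.P352.BW.H268.Tra

/-!
# P352 BW: under the law of the conformal group all local vectors are in the domains of the null
generators
-/

set_option linter.all false

noncomputable section

open MeasureTheory Filter Topology

namespace Vale.Agent.P352.BW.H614

open GF H246 H496 H755 H15
open UniformSpace (Completion)
open H284C (mm LL xx mm_zero mm_der LL_zero xx_zero mm_pos LL_lor curve_der law_e LawS)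

/-- if `t ↦ E t (ψ t)` and `ψ` are differentiable at zero, so is `t ↦ E t (ψ 0)` -/
theorem prod_inv {H : Type*} [NormedAddCommGroup H] [InnerProductSpace ℂ H] (E : ℝ → H →L[ℂ] H)
    (hn : ∀ t z, ‖E t z‖ ≤ ‖z‖) (hc : ∀ z, Continuous fun t => E t z) (h0 : E 0 = 1)
    {ψ : ℝ → H} {ψ' w : H} (hψ : HasDerivAt ψ ψ' 0)
    (hw : HasDerivAt (fun t => E t (ψ t)) w 0) :
    HasDerivAt (fun t => E t (ψ 0)) (w + -ψ') 0 := by
  have h1 : HasDerivAt (fun t => ψ 0 - ψ t) (-ψ') 0 := hψ.const_sub (ψ 0)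
  have h2 := JB.prod_der E hn hc h0 (w := 0) h1 (by
    simp only [sub_self, map_zero]
    exact hasDerivAt_const _ _)
  rw [zero_add] at h2
  refine (hw.add h2).congr_of_eventuallyEq (Eventually.of_forall fun t => ?_)
  show E t (ψ 0) = E t (ψ t) + E t (ψ 0 - ψ t)
  rw [← map_add]
  congr 1
  abel

variable {D : Type*} [NormedAddCommGroup D] [InnerProductSpace ℂ D] {Q : Theory D}
  {A : (V → V) → D → D} {𝒜 : Set V → VonNeumannAlgebra (Completion D)}
  {S : V → ℝ → Completion D →L[ℂ] Completion D}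

lemma s_norm (h : Gr0 Q 𝒜 S) {a : V} (ha : IsNull a) (c : ℝ) (z : Completion D) :
    ‖S a c z‖ ≤ ‖z‖ := by
  have h1 := h.inn a c z z ha
  rw [inner_self_eq_norm_sq_to_K, inner_self_eq_norm_sq_to_K] at h1
  have h2 : ‖S a c z‖ ^ 2 = ‖z‖ ^ 2 := by exact_mod_cast h1
  exact ((pow_left_inj₀ (norm_nonneg _) (norm_nonneg _) two_ne_zero).1 h2).le

/-- translations off the null plane preserve the domain of the null generator in `D` -/
theorem der_b (hU : UStmt Q A) (R : Rep Q A) (h : Gr0 Q 𝒜 S) (hL : LawS Q S) {a b : V}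
    (ha : IsNull a) (hb : IsNull b) (hab : GF.mdot a b = 1) (t : ℝ) {v : D}
    (hv : ∃ w, HasDerivAt (fun c : ℝ => S a c (v : Completion D)) w 0) :
    ∃ w, HasDerivAt (fun c : ℝ => S a c ((Q.U 1 GF.one (t • b) v : D) : Completion D)) w 0 := by
  obtain ⟨w, hv⟩ := hv
  have ht : t • b = -((-t) • b) := by module
  rw [ht]
  generalize -t = t
  obtain ⟨W, hW⟩ := hU.lin 1 GF.one (-(t • b)) one_pos isLor_one
  set y : D := Q.U 1 GF.one (-(t • b)) v with hy
  have hc : HasDerivAt (fun e : ℝ => e * mm t e) 1 0 := by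
    have h1 := (hasDerivAt_id (0 : ℝ)).mul (mm_der t)
    refine h1.congr_deriv ?_
    rw [mm_zero]
    simp
  have d1 : HasDerivAt (fun e : ℝ => W (S a (e * mm t e) (v : Completion D))) (W w) 0 := by
    refine KB.lin_der W ?_
    have h1 : HasDerivAt (fun c : ℝ => S a c (v : Completion D)) w
        ((fun e : ℝ => e * mm t e) 0) := by
      show HasDerivAt _ _ ((0 : ℝ) * mm t 0)
      rw [zero_mul]
      exact hv
    exact (h1.scomp (0 : ℝ) hc).congr_deriv (one_smul _ _)
  have e1 : (fun e : ℝ => S a e ((Q.U (mm t e) (LL a b t e) (xx b t e) y : D) :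
      Completion D)) =ᶠ[𝓝 0] fun e : ℝ => W (S a (e * mm t e) (v : Completion D)) := by
    filter_upwards [law_e hU R hL ha hb hab t v] with e he
    rw [hW, he]
  have h0 : Q.U (mm t 0) (LL a b t 0) (xx b t 0) y = y := by
    rw [mm_zero, LL_zero, xx_zero]
    exact Uone y
  have d2 := prod_inv (fun c => S a c) (s_norm h ha) (fun z => h.cont a z ha) (h.zero a ha)
    (JB.coe_der (R.der (mm t) (LL a b t) (xx b t) (XX a (-(t • b))) y (mm_zero t)
      (LL_zero a b t) (xx_zero b t) (fun e => ⟨mm_pos t e, LL_lor ha hb hab t e⟩)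
      (curve_der ha hb hab t))) (d1.congr_of_eventuallyEq e1)
  simp only [h0] at d2
  exact ⟨_, d2⟩

/-- translations along `a` preserve the domain of the null generator -/
theorem der_a (hG : TfGen Q) (N : LNm Q A 𝒜) (h : Gr0 Q 𝒜 S) {a : V} (ha : IsNull a) (u : ℝ)
    {v : D} (hv : ∃ w, HasDerivAt (fun c : ℝ => S a c (v : Completion D)) w 0) :
    ∃ w, HasDerivAt (fun c : ℝ => S a c ((Q.U 1 GF.one (u • a) v : D) : Completion D)) w 0 := by
  obtain ⟨w, hv⟩ := hv
  have hU : UStmt Q A := ublock N.toRep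
  obtain ⟨W, hW⟩ := hU.lin 1 GF.one (u • a) one_pos isLor_one
  have e : ∀ c : ℝ, S a c ((Q.U 1 GF.one (u • a) v : D) : Completion D) =
      W (S a c (v : Completion D)) := by
    intro c
    rw [← hU.coe 1 GF.one (u • a) v one_pos isLor_one]
    have h1 := h.tra hG N a (u • a) c GF.one (v : Completion D) ha
      (by rw [md_smul, ha.1, mul_zero]) isLor_one (fun x => by
        rw [HM.sim_tr, md_smul_l, md_smul_l, md_smul, ha.1, smul_smul]
        have e1 : 2 * c * (u * GF.mdot a x) = 2 * c * GF.mdot a x * u := by ring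
        rw [e1]
        simp)
    rw [h1, hW, md_smul_l, md_smul, ha.1]
    simp
  refine ⟨W w, ?_⟩
  simp only [e]
  exact KB.lin_der W hv

/-- covariance of affiliation under translations -/
theorem aff_tr (N : LNm Q A 𝒜) {O O' : Set V} (x : V) (hO : ∀ z ∈ O, z + x ∈ O') {X : D → D}
    (hX : Aff (𝒜 O) X) :
    Aff (𝒜 O') (fun v => Q.U 1 GF.one x (X (Q.U 1 GF.one (-x) v))) := by
  have hU : UStmt Q A := ublock N.toRep
  obtain ⟨X', hX', hA⟩ := hX
  obtain ⟨W, hW⟩ := hU.lin 1 GF.one x one_pos isLor_one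
  have hWc : ∀ v : D, W (v : Completion D) = ((Q.U 1 GF.one x v : D) : Completion D) :=
    fun v => by rw [hW, hU.coe 1 GF.one x v one_pos isLor_one]
  have hin : ∀ v w : D, inner ℂ (Q.U 1 GF.one x v) w = inner ℂ v (Q.U 1 GF.one (-x) w) := by
    intro v w
    rw [← Q.U_inner 1 GF.one x v _ one_pos isLor_one, UU, add_neg_cancel, Uone]
  have hin' : ∀ v w : D, inner ℂ (Q.U 1 GF.one (-x) v) w = inner ℂ v (Q.U 1 GF.one x w) := by
    intro v w
    rw [← Q.U_inner 1 GF.one x _ w one_pos isLor_one, UU, add_neg_cancel, Uone]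
  refine ⟨fun v => Q.U 1 GF.one x (X' (Q.U 1 GF.one (-x) v)), fun v w => ?_,
    fun Y hY v w => ?_⟩
  · rw [hin, hX', hin']
  · set Y0 : Completion D →L[ℂ] Completion D :=
      (W.symm.toContinuousLinearEquiv : Completion D →L[ℂ] Completion D) * Y *
        (W.toContinuousLinearEquiv : Completion D →L[ℂ] Completion D) with hY0
    have hY0a : ∀ z, Y0 z = W.symm (Y (W z)) := fun z => rfl
    have hY1 : Y0 ∈ (𝒜 O).commutant := by
      rw [VonNeumannAlgebra.mem_commutant_iff]
      intro Z hZ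
      obtain ⟨Z', hZ', hc⟩ := N.cov 1 GF.one x O Z hZ one_pos isLor_one
      have hZ1 : Z' ∈ 𝒜 O' := N.mono _ O' (by
        rintro _ ⟨z, hz, rfl⟩
        rw [HM.sim_tr]
        exact hO z hz) Z' hZ'
      have hcm := VonNeumannAlgebra.mem_commutant_iff.1 hY Z' hZ1
      have hcm' : ∀ z, Z' (Y z) = Y (Z' z) := fun z => by
        have := congrArg (fun B : Completion D →L[ℂ] Completion D => B z) hcm
        exact this
      have hc' : ∀ z, Z' (W z) = W (Z z) := fun z => by rw [hW, hW]; exact hc z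
      ext z
      show Z (Y0 z) = Y0 (Z z)
      rw [hY0a, hY0a, ← hc', ← hcm']
      apply W.injective
      rw [← hc', W.apply_symm_apply, W.apply_symm_apply]
    have h1 := hA Y0 hY1 (Q.U 1 GF.one (-x) v) (Q.U 1 GF.one (-x) w)
    have h2 : W ((Q.U 1 GF.one (-x) v : D) : Completion D) = (v : Completion D) := by
      rw [hWc, UU, add_neg_cancel, Uone]
    have h3 : W ((Q.U 1 GF.one (-x) w : D) : Completion D) = (w : Completion D) := by
      rw [hWc, UU, add_neg_cancel, Uone]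
    have g1 : ∀ (p : D) (q : Completion D), inner ℂ ((Q.U 1 GF.one x p : D) : Completion D) q =
        inner ℂ (p : Completion D) (W.symm q) := by
      intro p q
      have g2 := W.inner_map_map (p : Completion D) (W.symm q)
      rw [W.apply_symm_apply, hWc] at g2
      exact g2
    rw [hY0a, hY0a, h2, ← g1, ← g1, hWc, UU x (-x) w, add_neg_cancel, Uone] at h1
    exact h1

/-- bounded sets, translated into the regions `Rg a b c` -/
theorem exists_tr {a b : V} (ha : IsNull a) (hb : IsNull b) (hab : GF.mdot a b = 1) {O : Set V}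
    {r : ℝ} (hO : ∀ z ∈ O, ∀ m, |z m| ≤ r) :
    ∃ t u c : ℝ, 0 < c ∧ ∀ z ∈ O, z + (u • a + t • b) ∈ HM.Rg a b c := by
  set M : ℝ := (∑ m, |a m|) * |r| + (∑ m, |b m|) * |r| + (∑ m : Ix, |r|) * |r| with hM
  have hA0 : 0 ≤ (∑ m, |a m|) * |r| := mul_nonneg (Finset.sum_nonneg fun _ _ => abs_nonneg _)
    (abs_nonneg _)
  have hB0 : 0 ≤ (∑ m, |b m|) * |r| := mul_nonneg (Finset.sum_nonneg fun _ _ => abs_nonneg _)
    (abs_nonneg _)
  have hC0 : 0 ≤ (∑ m : Ix, |r|) * |r| := mul_nonneg (Finset.sum_nonneg fun _ _ => abs_nonneg _)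
    (abs_nonneg _)
  have hM0 : 0 ≤ M := by rw [hM]; positivity
  have hba : GF.mdot b a = 1 := by rw [md_comm]; exact hab
  have hc : (0 : ℝ) < 1 / (4 * (2 * M + 1)) := by positivity
  refine ⟨-(M + 1), 2 * (M + (M + 2 * (M + 1) * M)) + 1, 1 / (4 * (2 * M + 1)), hc, ?_⟩
  intro z hz
  have hz1 : ∀ m, |z m| ≤ |r| := fun m => (hO z hz m).trans (le_abs_self r)
  have ka := abs_le.1 (H496.abs_mdot_le a z hz1)
  have kb := abs_le.1 (H496.abs_mdot_le b z hz1)
  have kz : |GF.mdot z z| ≤ (∑ m : Ix, |r|) * |r| :=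
    (H496.abs_mdot_le z z hz1).trans (mul_le_mul_of_nonneg_right
      (Finset.sum_le_sum fun m _ => hz1 m) (abs_nonneg _))
  have kz' := abs_le.1 kz
  set u : ℝ := 2 * (M + (M + 2 * (M + 1) * M)) + 1 with hu
  set c : ℝ := 1 / (4 * (2 * M + 1)) with hcc
  have hc4 : c * (4 * (2 * M + 1)) = 1 := by
    rw [hcc]
    field_simp
  have hc1 : c ≤ 1 := by
    rw [← hc4]
    exact le_mul_of_one_le_right hc.le (by linarith)
  have p1 : -M ≤ GF.mdot a z := by linarith [ka.1]
  have p2 : GF.mdot a z ≤ M := by linarith [ka.2]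
  have q1 : -M ≤ GF.mdot b z := by linarith [kb.1]
  have q2 : GF.mdot b z ≤ M := by linarith [kb.2]
  have s1 : -M ≤ GF.mdot z z := by linarith [kz'.1]
  have e1 : GF.mdot a (z + (u • a + (-(M + 1)) • b)) = GF.mdot a z - (M + 1) := by
    rw [md_add, md_add, md_smul, md_smul, ha.1, hab]
    ring
  have e2 : GF.mdot b (z + (u • a + (-(M + 1)) • b)) = GF.mdot b z + u := by
    rw [md_add, md_add, md_smul, md_smul, hb.1, hba]
    ring
  have e3 : GF.mdot (z + (u • a + (-(M + 1)) • b)) (z + (u • a + (-(M + 1)) • b)) =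
      GF.mdot z z + 2 * u * GF.mdot a z - 2 * (M + 1) * GF.mdot b z - 2 * u * (M + 1) := by
    simp only [md_add, md_add_l, md_smul, md_smul_l, ha.1, hb.1, hab, hba, md_comm z a,
      md_comm z b]
    ring
  have k1 : -(1 / 2 : ℝ) ≤ 2 * c * (GF.mdot a z - (M + 1)) := by
    have k0 : 2 * c * (-(2 * M + 1)) ≤ 2 * c * (GF.mdot a z - (M + 1)) :=
      mul_le_mul_of_nonneg_left (by linarith) (by positivity)
    have k00 : 2 * c * (-(2 * M + 1)) = -(1 / 2) := by linear_combination (-(1 / 2)) * hc4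
    rw [k00] at k0
    exact k0
  refine ⟨?_, ?_, ?_⟩
  · rw [e1]; linarith
  · rw [e1]; linarith
  · rw [e2, e3]
    have k2 : c * (GF.mdot z z - 2 * (M + 1) * GF.mdot b z) ≥ -(M + 2 * (M + 1) * M) := by
      have k31 : 2 * (M + 1) * GF.mdot b z ≤ 2 * (M + 1) * M :=
        mul_le_mul_of_nonneg_left q2 (by positivity)
      have k3 : -(M + 2 * (M + 1) * M) ≤ GF.mdot z z - 2 * (M + 1) * GF.mdot b z := by
        linarith
      have k4 : c * -(M + 2 * (M + 1) * M) ≤ c * (GF.mdot z z - 2 * (M + 1) * GF.mdot b z) :=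
        mul_le_mul_of_nonneg_left k3 hc.le
      have k5 : 0 ≤ M + 2 * (M + 1) * M := by positivity
      have k51 : c * (M + 2 * (M + 1) * M) ≤ 1 * (M + 2 * (M + 1) * M) :=
        mul_le_mul_of_nonneg_right hc1 k5
      have k52 : c * -(M + 2 * (M + 1) * M) = -(c * (M + 2 * (M + 1) * M)) := by ring
      linarith
    have hu0 : 0 ≤ u := by rw [hu]; positivity
    have k6 : u * (1 / 2 : ℝ) ≤ u * (1 + 2 * c * (GF.mdot a z - (M + 1))) :=
      mul_le_mul_of_nonneg_left (by linarith) hu0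
    have k7 : GF.mdot b z + u + c * (GF.mdot z z + 2 * u * GF.mdot a z -
        2 * (M + 1) * GF.mdot b z - 2 * u * (M + 1)) = GF.mdot b z +
        c * (GF.mdot z z - 2 * (M + 1) * GF.mdot b z) +
        u * (1 + 2 * c * (GF.mdot a z - (M + 1))) := by ring
    rw [k7]
    have k8 : u * (1 / 2 : ℝ) = M + (M + 2 * (M + 1) * M) + 1 / 2 := by rw [hu]; ring
    linarith

lemma back {a b : V} (t u : ℝ) (w : D) : Q.U 1 GF.one ((-t) • b) (Q.U 1 GF.one ((-u) • a)
    (Q.U 1 GF.one (u • a + t • b) w)) = w := by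
  rw [UU ((-u) • a) (u • a + t • b) w]
  have e1 : (-u) • a + (u • a + t • b) = t • b := by
    rw [neg_smul, neg_add_cancel_left]
  rw [e1, UU ((-t) • b) (t • b) w]
  have e2 : (-t) • b + t • b = (0 : V) := by
    rw [neg_smul, neg_add_cancel]
  rw [e2]
  exact Uone w

/-- **All local vectors are in the domains of the null generators.** -/
theorem dom (hG : TfGen Q) (N : LNm Q A 𝒜) (h : Gr0 Q 𝒜 S) (hL : LawS Q S) {a : V}
    (ha : IsNull a) {O : Set V} {r : ℝ} (hO : ∀ z ∈ O, ∀ m, |z m| ≤ r) {X : D → D}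
    (hX : Aff (𝒜 O) X) :
    ∃ w : Completion D, HasDerivAt (fun s : ℝ => S a s ((X Q.vac : D) : Completion D)) w 0 := by
  obtain ⟨b, hb, hab⟩ := H755.exists_dual ha
  have hU : UStmt Q A := ublock N.toRep
  obtain ⟨t, u, c, hc, hz⟩ := exists_tr ha hb hab hO
  have h1 : ∃ w : Completion D, HasDerivAt (fun s : ℝ => S a s
      ((Q.U 1 GF.one (u • a + t • b) (X Q.vac) : D) : Completion D)) w 0 := by
    have h2 := h.dom hG N ha hb hab hc (aff_tr N (u • a + t • b) hz hX)
    have hvac : Q.U 1 GF.one (-(u • a + t • b)) Q.vac = Q.vac :=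
      Q.U_vac 1 GF.one _ one_pos isLor_one
    obtain ⟨w, hw⟩ := h2
    refine ⟨w, ?_⟩
    rw [hvac] at hw
    exact hw
  obtain ⟨w, hw⟩ := der_b hU N.toRep h hL ha hb hab (-t) (der_a hG N h ha (-u) h1)
  refine ⟨w, ?_⟩
  rw [back] at hw
  exact hw

end Vale.Agent.P352.BW.H614

end
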