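import Vale.Agent.P132.Bd8.B2

/-!
# P352 BW: the modular relation on the commutant
-/

set_option linter.all false

open Filter Topology
open scoped ComplexConjugate InnerProductSpace BoundedContinuousFunction

namespace Vale.Agent.P352.BW.H614

open Vale.Agent.P132 (ModData)
open Vale.Agent.P132.ModData (gd_cutoff gdE)

variable {H : Type*} [NormedAddCommGroup H] [InnerProductSpace ℂ H] [CompleteSpace H]
variable {M : VonNeumannAlgebra H} {ξ : H} (D : ModData M ξ)

/-- smooth real cutoffs that tend to one -/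
theorem exists_cuts (D : ModData M ξ) : ∃ χ : ℕ → ℝ →ᵇ ℂ, (∀ n, ContDiff ℝ (⊤ : ℕ∞) (χ n)) ∧
    (∀ n, HasCompactSupport (χ n)) ∧ (∀ n x, conj (χ n x) = χ n x) ∧
    ∀ v, Tendsto (fun n => D.Th (χ n) v) atTop (𝓝 v) := by
  choose χ hs hc hn h1 hr using fun n : ℕ =>
    gd_cutoff (Set.Icc (-(n : ℝ)) n) isCompact_Icc
  refine ⟨χ, hs, hc, hr, fun v => ?_⟩
  have h := Vale.Agent.P132.tendsto_Th D.Th D.Th_nondeg v χ 1 1
    (Eventually.of_forall fun n x => ((χ n).norm_coe_le_norm x).trans (hn n)) (l := atTop) (by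
      intro x
      refine tendsto_const_nhds.congr' ?_
      obtain ⟨m, hm⟩ := exists_nat_ge |x|
      filter_upwards [eventually_ge_atTop m] with n hnm
      have h2 : |x| ≤ n := hm.trans (by exact_mod_cast hnm)
      rw [h1 n x (abs_le.1 h2)]
      rfl)
  simpa using h

/-- `Δ^{1/2} J y ξ = y* ξ` for `y` in the commutant -/
theorem kms' {y : H →L[ℂ] H} (hy : y ∈ M.commutant) (F : ℝ →ᵇ ℂ)
    (hFs : ContDiff ℝ (⊤ : ℕ∞) F) (hF : HasCompactSupport F) (hFr : ∀ x, conj (F x) = F x) :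
    D.Th (gdE F hF) (D.J (y ξ)) = D.Th F (star y ξ) := by
  refine D.gd_adj D.smth (fun a ha => ?_) F hFs hF hFr
  have h1 : a (y ξ) = y (a ξ) := ModData.comm_apply ha hy ξ
  rw [ContinuousLinearMap.star_eq_adjoint, ContinuousLinearMap.star_eq_adjoint,
    ContinuousLinearMap.adjoint_inner_left, ContinuousLinearMap.adjoint_inner_left, h1]

/-- the symmetric form of the modular relation on the commutant -/
theorem symm' {y Z : H →L[ℂ] H} (hy : y ∈ M.commutant) (hZ : Z ∈ M.commutant) :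
    ⟪D.J (y ξ), Z ξ⟫_ℂ = ⟪star Z ξ, D.J (star y ξ)⟫_ℂ := by
  obtain ⟨χ, hs, hc, hr, ht⟩ := exists_cuts D
  have hst : ∀ F : ℝ →ᵇ ℂ, (∀ x, conj (F x) = F x) → star F = F := by
    intro F hF
    ext x
    simp only [BoundedContinuousFunction.star_apply, RCLike.star_def, hF]
  have key : ∀ n, ⟪D.Th (χ n) (D.J (y ξ)), D.Th (χ n) (Z ξ)⟫_ℂ =
      ⟪D.Th (χ n) (star y ξ), D.Th (χ n) (D.J (star Z ξ))⟫_ℂ := by
    intro n
    have e1 := kms' D hy (χ n) (hs n) (hc n) (hr n)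
    have e2 := kms' D (star_mem hZ) (χ n) (hs n) (hc n) (hr n)
    rw [star_star] at e2
    have hE : star (gdE (χ n) (hc n)) = gdE (χ n) (hc n) := hst _ fun x => by
      simp only [ModData.gdM_apply, map_mul, Complex.conj_ofReal, hr]
    rw [← e2, ← e1, D.gd_inner_Th, D.gd_inner_Th (gdE (χ n) (hc n)), hst _ (hr n), hE,
      ← D.gd_Th_mul, ← D.gd_Th_mul, mul_comm]
  have h1 := (ht (D.J (y ξ))).inner (𝕜 := ℂ) (ht (Z ξ))
  have h2 := (ht (star y ξ)).inner (𝕜 := ℂ) (ht (D.J (star Z ξ)))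
  have h3 := tendsto_nhds_unique (h1.congr key) h2
  rw [h3, D.inner_J_right]

end Vale.Agent.P352.BW.H614
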